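import Vale.Agent.P217.Action
import Vale.Agent.P217.CharZero.Main
import Vale.Agent.P217.Chi.Target
import Vale.Agent.P217.Eval
import Vale.Agent.P217.Formal.Hom
import Vale.Agent.P217.Formal.LowDegree
import Vale.Agent.P217.Grad
import Vale.Agent.P217.Main
import Vale.Agent.P217.NoIdeal.Target
import Vale.Agent.P217.Orbit.Target
import Vale.Agent.P217.Period
import Vale.Agent.P217.Points
import Vale.Agent.P217.Relation.Target
import Vale.Agent.P217.Rigidity.Target
import Vale.Agent.P217.Theta.Target
import Vale.Agent.P217.Tilt
import Vale.Agent.P217.Torsion.Target
import Vale.Agent.P217.Statement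
import Vale.Agent.P217.Deform.Main

/-!
# P217, question Q1: the invariant prime and radical ideals of the Lubin-Tate ring
-/

namespace Vale.Agent.Results.P217.InvariantIdeals

open Vale.Agent.P217

/-- Chai's invariant ideal question Q1, for every prime and every height, for the universal
deformation of the Honda formal group. -/
theorem result : Vale.Agent.P217.UniversalAnswer := fun p _ n hn k _ _ _ hk =>
  have hTh : ThetaTarget := thetaTarget evalTarget lowDegreeTarget
  have hChi : ChiTarget := chiTarget evalTarget lowDegreeTarget hTh periodTarget
  ⟨univLaw p n k, Deform.univLaw_universal hn,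
    answerFor_univLaw lawTarget lowDegreeTarget evalTarget tiltTarget pointPTarget point0Target
      actionTarget
      (gradTarget evalTarget lawTarget lowDegreeTarget hTh
        (torsionTarget evalTarget lowDegreeTarget)
        (relationTarget evalTarget lowDegreeTarget periodTarget hChi)
        (orbitTarget actionTarget hTh evalTarget formalFixTarget lawTarget lowDegreeTarget)
        rigidityTarget (noIdealTarget evalTarget formalFixTarget lawTarget))
      (charZeroTarget lawTarget evalTarget actionTarget hTh periodTarget homTarget) p n hn k hk⟩

end Vale.Agent.Results.P217.InvariantIdeals
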